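import Mathlib.LinearAlgebra.FiniteDimensional.Basic
import Mathlib.LinearAlgebra.FreeModule.Finite.Matrix
import Mathlib.Analysis.Complex.Basic
import Mathlib.Data.Set.Card
import Mathlib.Order.Interval.Finset.Nat
import Mathlib.Data.Pi.Interval
import Mathlib.Tactic

/-!
# The dimension count of the upper bound (leaf (C6) of helper411, sprint [Z] of P181)
-/

namespace Vale.Agent.P181.Z.H663

/-- two families with the same multiset of values differ by a permutation -/
theorem exists_perm_of_map_eq {ι α : Type*} [Fintype ι] (f g : ι → α)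
    (h : Finset.univ.val.map f = Finset.univ.val.map g) : ∃ σ : Equiv.Perm ι, g = f ∘ σ := by
  classical
  have hc : ∀ w : α, Fintype.card {j // g j = w} = Fintype.card {j // f j = w} := by
    intro w
    have h1 := congrArg (Multiset.count w) h
    rw [Multiset.count_map, Multiset.count_map] at h1
    rw [Fintype.card_subtype, Fintype.card_subtype, Finset.card_def, Finset.card_def,
      Finset.filter_val, Finset.filter_val]
    simp only [eq_comm] at h1 ⊢
    exact h1
  refine ⟨Equiv.ofFiberEquiv (fun w => Fintype.equivOfCardEq (hc w)), ?_⟩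
  funext j
  exact (Equiv.ofFiberEquiv_map _ j).symm

/-- the multiset of the nonzero values -/
def nz {κ ι : Type*} [Fintype ι] [Fintype κ] (v : ι → κ → ℕ) : Multiset (κ → ℕ) :=
  (Finset.univ.val.map v).filter (· ≠ 0)

theorem nz_inj {κ ι : Type*} [Fintype ι] [Fintype κ] (v v' : ι → κ → ℕ) (h : nz v = nz v') :
    ∃ σ : Equiv.Perm ι, v' = v ∘ σ := by
  apply exists_perm_of_map_eq
  have h1 : ∀ u : ι → κ → ℕ, Finset.univ.val.map u =
      nz u + Multiset.replicate (Fintype.card ι - (nz u).card) 0 := by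
    intro u
    have h2 := Multiset.filter_add_not (fun w : κ → ℕ => w ≠ 0) (Finset.univ.val.map u)
    have h3 : (Finset.univ.val.map u).filter (fun w : κ → ℕ => ¬ (w ≠ 0)) =
        Multiset.replicate (Fintype.card ι - (nz u).card) 0 := by
      rw [Multiset.eq_replicate]
      constructor
      · have h4 := congrArg Multiset.card h2
        rw [Multiset.card_add, Multiset.card_map] at h4
        have h5 : Multiset.card (Finset.univ : Finset ι).val = Fintype.card ι := rfl
        rw [h5] at h4
        unfold nz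
        omega
      · intro w hw
        exact not_not.1 (Multiset.mem_filter.1 hw).2
    rw [← h3]
    exact h2.symm
  rw [h1 v, h1 v', h]

theorem sum_nz {κ ι : Type*} [Fintype ι] [Fintype κ] (v : ι → κ → ℕ) :
    (nz v).sum = ∑ j, v j := by
  have h2 := Multiset.filter_add_not (fun w : κ → ℕ => w ≠ 0) (Finset.univ.val.map v)
  have h4 := congrArg Multiset.sum h2
  rw [Multiset.sum_add] at h4
  have h3 : ((Finset.univ.val.map v).filter (fun w : κ → ℕ => ¬ (w ≠ 0))).sum = 0 := by
    apply Multiset.sum_eq_zero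
    intro w hw
    exact not_not.1 (Multiset.mem_filter.1 hw).2
  rw [h3, add_zero] at h4
  exact h4

theorem card_filter_nz {κ ι : Type*} [Fintype ι] [Fintype κ] (v : ι → κ → ℕ)
    (P : (κ → ℕ) → Prop) [DecidablePred P] (hP : ∀ w, P w → w ≠ 0) :
    ((nz v).filter P).card = (Finset.univ.filter fun j => P (v j)).card := by
  unfold nz
  rw [Multiset.filter_filter, Multiset.filter_map, Multiset.card_map, Finset.card_def,
    Finset.filter_val]
  congr 1
  apply Multiset.filter_congr
  intro j _
  exact ⟨fun h => h.1, fun h => ⟨h, hP _ h⟩⟩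

/-- the multisets of letters with given sum are finitely many -/
theorem finite_of_sum {κ : Type*} [Fintype κ] (lb : κ → ℕ) :
    {M : Multiset (κ → ℕ) | (∀ w ∈ M, w ≠ 0) ∧ M.sum = lb}.Finite := by
  classical
  have hfin : {M : Multiset (κ → ℕ) | ∀ w, M.count w ≤
      if w ∈ Finset.Icc 0 lb then ∑ i, lb i else 0}.Finite := by
    have h1 : {M : Multiset (κ → ℕ) | M ≤ (Finset.Icc 0 lb).val.bind
        fun w => Multiset.replicate (∑ i, lb i) w}.Finite := by
      exact (Finset.finite_toSet (Multiset.toFinset (Multiset.powerset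
        ((Finset.Icc 0 lb).val.bind fun w => Multiset.replicate (∑ i, lb i) w)))).subset
        fun M hM => by
          simpa using hM
    refine h1.subset ?_
    intro M hM
    have hM' : ∀ w, M.count w ≤ if w ∈ Finset.Icc 0 lb then ∑ i, lb i else 0 := hM
    change M ≤ _
    rw [Multiset.le_iff_count]
    intro w
    refine (hM' w).trans ?_
    split_ifs with hw
    · rw [Multiset.count_bind]
      refine le_trans ?_ (Multiset.single_le_sum (fun _ _ => Nat.zero_le _) _
        (Multiset.mem_map.2 ⟨w, hw, rfl⟩))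
      rw [Multiset.count_replicate_self]
    · exact Nat.zero_le _
  refine hfin.subset ?_
  rintro M ⟨hM0, hM⟩
  change ∀ w, M.count w ≤ if w ∈ Finset.Icc 0 lb then ∑ i, lb i else 0
  intro w
  have hle : ∀ w ∈ M, w ≤ lb := by
    intro w hw
    rw [← hM]
    exact Multiset.single_le_sum (fun _ _ => zero_le) _ hw
  have hcard : M.card ≤ ∑ i, lb i := by
    have h1 : (M.map fun w => ∑ i, w i).sum = ∑ i, lb i := by
      rw [← hM]
      have h2 : ∀ T : Multiset (κ → ℕ), (T.map fun w => ∑ i, w i).sum = ∑ i, T.sum i := by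
        intro T
        induction T using Multiset.induction_on with
        | empty => simp
        | cons u T ih =>
          rw [Multiset.map_cons, Multiset.sum_cons, ih, Multiset.sum_cons]
          simp [Finset.sum_add_distrib]
      exact h2 M
    rw [← h1]
    have h3 : M.card • 1 ≤ (M.map fun w => ∑ i, w i).sum := by
      have h4 := Multiset.card_nsmul_le_sum (s := M.map fun w => ∑ i, w i) (a := 1) (by
        intro x hx
        obtain ⟨w, hw, rfl⟩ := Multiset.mem_map.1 hx
        obtain ⟨i, hi⟩ := Function.ne_iff.1 (hM0 w hw)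
        have h5 : w i ≤ ∑ i, w i :=
          Finset.single_le_sum (f := w) (fun _ _ => Nat.zero_le _) (Finset.mem_univ i)
        have h6 : 0 < w i := Nat.pos_of_ne_zero hi
        omega)
      rwa [Multiset.card_map] at h4
    simpa using h3
  split_ifs with hw
  · exact (Multiset.count_le_card w M).trans hcard
  · have h7 : w ∉ M := fun h => hw (Finset.mem_Icc.2 ⟨fun _ => Nat.zero_le _, hle w h⟩)
    rw [Multiset.count_eq_zero_of_notMem h7]

/-- leaf (C6), general predicate -/
theorem finrank_le_ncard_gen {κ : Type*} [Fintype κ] {K : Type*} [AddCommGroup K] [Module ℂ K]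
    {N a t : ℕ} (lb : κ → ℕ) (P : (κ → ℕ) → Prop) [DecidablePred P] (hP : ∀ w, P w → w ≠ 0)
    (c : (Fin N → κ → ℕ) → (K →ₗ[ℂ] ℂ))
    (hperm : ∀ (σ : Equiv.Perm (Fin N)) v, c (fun j => v (σ j)) = c v)
    (hdeg : ∀ v, c v ≠ 0 → ∀ j, ∑ i, v j i ≤ a)
    (hwt : ∀ v, c v ≠ 0 → ∀ i, ∑ j, v j i = lb i)
    (hinj : ∀ x, (∀ v, t ≤ (Finset.univ.filter fun j => P (v j)).card → c v x = 0) → x = 0) :
    Module.finrank ℂ K ≤ Set.ncard {M : Multiset (κ → ℕ) |
      (∀ v ∈ M, v ≠ 0 ∧ ∑ i, v i ≤ a) ∧ M.sum = lb ∧ t ≤ (M.filter P).card} := by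
  classical
  set S := {M : Multiset (κ → ℕ) |
      (∀ v ∈ M, v ≠ 0 ∧ ∑ i, v i ≤ a) ∧ M.sum = lb ∧ t ≤ (M.filter P).card} with hS
  have hfin : S.Finite := (finite_of_sum lb).subset fun M hM => ⟨fun w hw => (hM.1 w hw).1, hM.2.1⟩
  have : Fintype S := hfin.fintype
  let Φ : K →ₗ[ℂ] (S → ℂ) := LinearMap.pi fun M =>
    if h : ∃ v : Fin N → κ → ℕ, nz v = M.1 then c h.choose else 0
  have hΦ : Function.Injective Φ := by
    rw [← LinearMap.ker_eq_bot, LinearMap.ker_eq_bot']
    intro x hx
    apply hinj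
    intro v hv
    by_cases hc : c v = 0
    · rw [hc]
      rfl
    · have hmem : nz v ∈ S := by
        refine ⟨?_, ?_, ?_⟩
        · intro w hw
          obtain ⟨hw1, hw2⟩ := Multiset.mem_filter.1 hw
          obtain ⟨j, -, rfl⟩ := Multiset.mem_map.1 hw1
          exact ⟨hw2, hdeg v hc j⟩
        · rw [sum_nz]
          funext i
          rw [Finset.sum_apply]
          exact hwt v hc i
        · rw [card_filter_nz v P hP]
          exact hv
      have hex : ∃ u : Fin N → κ → ℕ, nz u = (⟨nz v, hmem⟩ : S).1 := ⟨v, rfl⟩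
      have h1 := congrFun hx ⟨nz v, hmem⟩
      have h2 : Φ x ⟨nz v, hmem⟩ = c hex.choose x := by
        change (if h : ∃ u : Fin N → κ → ℕ, nz u = (⟨nz v, hmem⟩ : S).1 then c h.choose else 0) x
          = _
        rw [dif_pos hex]
      rw [h2] at h1
      obtain ⟨σ, hσ⟩ := nz_inj hex.choose v hex.choose_spec
      have h3 : c v = c hex.choose := by
        conv_lhs => rw [hσ]
        exact hperm σ _
      rw [h3]
      exact h1
  have h4 := LinearMap.finrank_le_finrank_of_injective hΦ
  rw [Module.finrank_fintype_fun_eq_card] at h4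
  rwa [← Nat.card_coe_set_eq, Nat.card_eq_fintype_card]

/-- leaf (C6) of helper411, literal form -/
theorem finrank_le_ncard {n N a t : ℕ} {K : Type*} [AddCommGroup K] [Module ℂ K]
    (lb : Fin (n + 1) → ℕ) (c : (Fin N → Fin (n + 1) → ℕ) → (K →ₗ[ℂ] ℂ))
    (hperm : ∀ (σ : Equiv.Perm (Fin N)) v, c (fun j => v (σ j)) = c v)
    (hdeg : ∀ v, c v ≠ 0 → ∀ j, ∑ i, v j i ≤ a)
    (hwt : ∀ v, c v ≠ 0 → ∀ i, ∑ j, v j i = lb i)
    (hinj : ∀ x, (∀ v : Fin N → Fin (n + 1) → ℕ,
      t ≤ (Finset.univ.filter fun j => ∃ i : Fin n, v j i.succ ≠ 0).card → c v x = 0) → x = 0) :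
    Module.finrank ℂ K ≤ Set.ncard {M : Multiset (Fin (n + 1) → ℕ) |
      (∀ v ∈ M, v ≠ 0 ∧ ∑ i, v i ≤ a) ∧ M.sum = lb ∧
        t ≤ (M.filter fun v => ∃ i : Fin n, v i.succ ≠ 0).card} := by
  refine finrank_le_ncard_gen lb (fun v => ∃ i : Fin n, v i.succ ≠ 0) ?_ c hperm hdeg hwt ?_
  · rintro w ⟨i, hi⟩ rfl
    exact hi rfl
  · intro x hx
    exact hinj x fun v hv => hx v hv

end Vale.Agent.P181.Z.H663
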