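import Vale.Agent.P181.Z.H663.Prod
import Mathlib.RingTheory.Finiteness.Basic

/-!
# The uniform form of leaf (2b): the number of factors depends only on the number of variables
and on `b`
-/

namespace Vale.Agent.P181.Z.H663

open MvPolynomial

variable {σ : Type*}

/-- products of at most `N` factors `1 + m`, `m` homogeneous of degree 1 -/
def GoodN (N : ℕ) (Q : MvPolynomial σ ℂ) : Prop :=
  ∃ M : Multiset (MvPolynomial σ ℂ), M.card ≤ N ∧ (∀ m ∈ M, m.IsHomogeneous 1) ∧
    Q = (M.map fun m => 1 + m).prod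

theorem GoodN.one (N : ℕ) : GoodN N (1 : MvPolynomial σ ℂ) := ⟨0, by simp, by simp, by simp⟩

theorem GoodN.mul {a b : ℕ} {P Q : MvPolynomial σ ℂ} (hP : GoodN a P) (hQ : GoodN b Q) :
    GoodN (a + b) (P * Q) := by
  obtain ⟨M, hMc, hM, rfl⟩ := hP
  obtain ⟨N, hNc, hN, rfl⟩ := hQ
  refine ⟨M + N, ?_, ?_, by simp⟩
  · rw [Multiset.card_add]
    omega
  · intro m hm
    rcases Multiset.mem_add.1 hm with h | h
    exacts [hM m h, hN m h]

theorem goodN_aeval (l : MvPolynomial σ ℂ) (hl : l.IsHomogeneous 1) (p : Polynomial ℂ)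
    (hp : p.eval 0 = 1) : GoodN p.natDegree (Polynomial.aeval l p) := by
  have hs := (IsAlgClosed.splits p).eq_prod_roots
  have h0 : 1 = p.leadingCoeff * (p.roots.map (fun a => - a)).prod := by
    have h := congrArg (Polynomial.eval 0) hs
    rw [hp] at h
    simpa [Polynomial.eval_multiset_prod] using h
  have hp0 : p ≠ 0 := by
    rintro rfl
    simp at hp
  have hne : ∀ a ∈ p.roots, a ≠ 0 := by
    rintro a ha rfl
    have := (Polynomial.mem_roots hp0).1 ha
    rw [Polynomial.IsRoot, hp] at this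
    exact one_ne_zero this
  refine ⟨p.roots.map fun a => C (-a⁻¹) * l, ?_, ?_, ?_⟩
  · rw [Multiset.card_map]
    exact Polynomial.card_roots' p
  · intro m hm
    obtain ⟨a, -, rfl⟩ := Multiset.mem_map.1 hm
    exact hl.C_mul _
  · have h1 : Polynomial.aeval l p =
        C p.leadingCoeff * (p.roots.map fun a => l - C a).prod := by
      conv_lhs => rw [hs]
      rw [map_mul, Polynomial.aeval_C, map_multiset_prod, Multiset.map_map]
      congr 2
      apply Multiset.map_congr rfl
      intro a _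
      simp [algebraMap_eq]
    have h2 : (p.roots.map fun a => l - (C a : MvPolynomial σ ℂ)).prod =
        (p.roots.map fun a => (C (-a) : MvPolynomial σ ℂ)).prod *
          (p.roots.map fun a => 1 + C (-a⁻¹) * l).prod := by
      rw [← Multiset.prod_map_mul]
      congr 1
      apply Multiset.map_congr rfl
      intro a ha
      have h3 : (C (-a) : MvPolynomial σ ℂ) * (C (-a⁻¹) * l) = l := by
        rw [← mul_assoc, ← C_mul]
        rw [neg_mul_neg, mul_inv_cancel₀ (hne a ha)]
        simp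
      rw [mul_add, h3, mul_one, C_neg]
      ring
    have h4 : (p.roots.map fun a => (C (-a) : MvPolynomial σ ℂ)).prod =
        C (p.roots.map fun a => -a).prod := by
      rw [map_multiset_prod, Multiset.map_map]
      rfl
    rw [h1, h2, h4, ← mul_assoc, ← C_mul, ← h0, C_1, one_mul, Multiset.map_map]
    rfl

theorem W_fg [Finite σ] (s : ℕ) : (W σ s).FG := by
  classical
  have : Fintype σ := Fintype.ofFinite σ
  have hfin : {x : σ →₀ ℕ | x.degree = s}.Finite := by
    refine (Finsupp.finite_of_degree_le s).subset ?_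
    intro x hx
    exact le_of_eq hx
  have hsub : W σ s ≤ Submodule.span ℂ
      ((fun x : σ →₀ ℕ => (monomial x (1 : ℂ))) '' {x | x.degree = s}) := by
    unfold W
    rw [Submodule.span_le]
    rintro _ ⟨l, hl, rfl⟩
    have hh : (l ^ s).IsHomogeneous s := by simpa using hl.pow s
    rw [SetLike.mem_coe, MvPolynomial.as_sum (l ^ s)]
    refine Submodule.sum_mem _ fun v hv => ?_
    have hv' : v.degree = s := by
      by_contra hne
      exact (mem_support_iff.1 hv) (hh.coeff_eq_zero hne)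
    have h1 : monomial v (coeff v (l ^ s)) = coeff v (l ^ s) • monomial v (1 : ℂ) := by
      rw [smul_monomial, smul_eq_mul, mul_one]
    rw [h1]
    exact Submodule.smul_mem _ _ (Submodule.subset_span ⟨v, hv', rfl⟩)
  have hfd : Module.Finite ℂ (Submodule.span ℂ
      ((fun x : σ →₀ ℕ => (monomial x (1 : ℂ))) '' {x | x.degree = s})) :=
    Module.Finite.span_of_finite ℂ (hfin.image _)
  have h2 : Module.Finite ℂ (W σ s) := Submodule.finiteDimensional_of_le hsub
  exact (Module.Finite.iff_fg).1 h2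

theorem exists_goodN_finset (s : ℕ) (hs : 1 ≤ s) (t : Finset (MvPolynomial σ ℂ))
    (ht : ∀ x ∈ t, ∃ l : MvPolynomial σ ℂ, l.IsHomogeneous 1 ∧ x = l ^ s)
    (c : MvPolynomial σ ℂ → ℂ) :
    ∃ G, GoodN (t.card * s) G ∧
      G - (1 + ∑ x ∈ t, c x • x) ∈ idealOfVars σ ℂ ^ (s + 1) := by
  classical
  induction t using Finset.induction_on with
  | empty => exact ⟨1, GoodN.one _, by simp⟩
  | insert x t hx ih =>
    obtain ⟨K, hK, hKy⟩ := ih fun y hy => ht y (Finset.mem_insert_of_mem hy)
    obtain ⟨l, hl, hlx⟩ := ht x (Finset.mem_insert_self _ _)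
    have hG : GoodN s (1 + c x • x) := by
      have h5 : Polynomial.aeval l (1 + Polynomial.C (c x) * Polynomial.X ^ s) = 1 + c x • x := by
        rw [hlx]
        simp [smul_eq_C_mul, algebraMap_eq]
      have h6 := goodN_aeval l hl (1 + Polynomial.C (c x) * Polynomial.X ^ s)
        (by simp [zero_pow (by omega : s ≠ 0)])
      rw [h5] at h6
      obtain ⟨M, hM, h7⟩ := h6
      refine ⟨M, hM.trans ?_, h7⟩
      refine (Polynomial.natDegree_add_le _ _).trans ?_
      rw [Polynomial.natDegree_one]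
      exact max_le (Nat.zero_le _) (Polynomial.natDegree_C_mul_X_pow_le _ _)
    refine ⟨(1 + c x • x) * K, ?_, ?_⟩
    · have h8 := hG.mul hK
      rw [Finset.card_insert_of_notMem hx]
      have h9 : (t.card + 1) * s = s + t.card * s := by ring
      rw [h9]
      exact h8
    · rw [Finset.sum_insert hx]
      have hxW : c x • x ∈ W σ s :=
        Submodule.smul_mem _ _ (Submodule.subset_span ⟨l, hl, hlx⟩)
      have hyW : ∑ y ∈ t, c y • y ∈ W σ s :=
        Submodule.sum_mem _ fun y hy =>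
          Submodule.smul_mem _ _ (Submodule.subset_span (ht y (Finset.mem_insert_of_mem hy)))
      have hxy : c x • x * ∑ y ∈ t, c y • y ∈ idealOfVars σ ℂ ^ (s + 1) := by
        have h3 := Ideal.mul_mem_mul (W_mem_ideal s _ hxW) (W_mem_ideal s _ hyW)
        rw [← pow_add] at h3
        exact Ideal.pow_le_pow_right (by omega) h3
      have h4 : (1 + c x • x) * K - (1 + (c x • x + ∑ y ∈ t, c y • y)) =
          (1 + c x • x) * (K - (1 + ∑ y ∈ t, c y • y)) + c x • x * ∑ y ∈ t, c y • y := by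
        ring
      rw [h4]
      exact Ideal.add_mem _ (Ideal.mul_mem_left _ _ hKy) hxy

theorem exists_goodN_one_add [Finite σ] (s : ℕ) (hs : 1 ≤ s) :
    ∃ K : ℕ, ∀ H ∈ W σ s, ∃ G, GoodN K G ∧ G - (1 + H) ∈ idealOfVars σ ℂ ^ (s + 1) := by
  obtain ⟨t, ht, hWt⟩ := (Submodule.fg_span_iff_fg_span_finset_subset _).1 (W_fg (σ := σ) s)
  refine ⟨t.card * s, fun H hH => ?_⟩
  have hH' : H ∈ Submodule.span ℂ (t : Set (MvPolynomial σ ℂ)) := by
    rw [← hWt]
    exact hH
  obtain ⟨c, -, rfl⟩ := Submodule.mem_span_finset.1 hH'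
  exact exists_goodN_finset s hs t (fun x hx => ht hx) c

theorem exists_goodN [Finite σ] (b : ℕ) :
    ∃ N : ℕ, ∀ P : MvPolynomial σ ℂ, constantCoeff P = 1 →
      ∃ Q, GoodN N Q ∧ P - Q ∈ idealOfVars σ ℂ ^ (b + 1) := by
  have hP1 : ∀ P : MvPolynomial σ ℂ, constantCoeff P = 1 → P - 1 ∈ idealOfVars σ ℂ ^ 1 := by
    intro P hP
    rw [mem_pow_idealOfVars_iff']
    intro x hx
    have hx0 : x = 0 := by
      rw [← Finsupp.degree_eq_zero_iff]
      omega
    subst hx0
    rw [← constantCoeff_eq, map_sub, hP]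
    simp
  induction b with
  | zero => exact ⟨0, fun P hP => ⟨1, GoodN.one _, by simpa using hP1 P hP⟩⟩
  | succ b ih =>
    obtain ⟨N, hN⟩ := ih
    obtain ⟨K, hK⟩ := exists_goodN_one_add (σ := σ) (b + 1) (by omega)
    refine ⟨N + K, fun P hP => ?_⟩
    obtain ⟨Q, hQ, hPQ⟩ := hN P hP
    obtain ⟨G, hG, hGH⟩ := hK (homogeneousComponent (b + 1) (P - Q))
      (mem_W _ _ (homogeneousComponent_isHomogeneous _ _))
    set H := homogeneousComponent (b + 1) (P - Q) with hHdef
    have hHI : H ∈ idealOfVars σ ℂ ^ (b + 1) :=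
      W_mem_ideal _ _ (mem_W _ _ (homogeneousComponent_isHomogeneous _ _))
    have h1 : P - Q - H ∈ idealOfVars σ ℂ ^ (b + 1 + 1) := by
      rw [mem_pow_idealOfVars_iff']
      intro x hx
      rw [coeff_sub, hHdef, coeff_homogeneousComponent]
      split_ifs with hd
      · exact sub_self _
      · rw [(mem_pow_idealOfVars_iff' _ _).1 hPQ x (by omega), sub_zero]
    have hQ1 : Q - 1 ∈ idealOfVars σ ℂ ^ 1 := by
      have h2 : Q - 1 = (P - 1) - (P - Q) := by ring
      rw [h2]
      exact Ideal.sub_mem _ (hP1 P hP) (Ideal.pow_le_pow_right (by omega) hPQ)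
    have h3 : (Q - 1) * H ∈ idealOfVars σ ℂ ^ (b + 1 + 1) := by
      have h4 := Ideal.mul_mem_mul hQ1 hHI
      rw [← pow_add] at h4
      exact Ideal.pow_le_pow_right (by omega) h4
    refine ⟨Q * G, hQ.mul hG, ?_⟩
    have h5 : P - Q * G = (P - Q - H) - Q * (G - (1 + H)) - (Q - 1) * H := by ring
    rw [h5]
    exact Ideal.sub_mem _ (Ideal.sub_mem _ h1 (Ideal.mul_mem_left _ _ hGH)) h3

theorem GoodN.exists_fin {N : ℕ} {Q : MvPolynomial σ ℂ} (hQ : GoodN N Q) :
    ∃ m : Fin N → MvPolynomial σ ℂ, (∀ j, (m j).IsHomogeneous 1) ∧ ∏ j, (1 + m j) = Q := by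
  obtain ⟨M, hc, hM, rfl⟩ := hQ
  obtain ⟨L, hL⟩ : ∃ L : List (MvPolynomial σ ℂ),
      (L : Multiset (MvPolynomial σ ℂ)) = M + Multiset.replicate (N - M.card) 0 :=
    ⟨(M + Multiset.replicate (N - M.card) 0).toList, Multiset.coe_toList _⟩
  have hlen : L.length = N := by
    have h1 := congrArg Multiset.card hL
    rw [Multiset.coe_card, Multiset.card_add, Multiset.card_replicate] at h1
    omega
  subst hlen
  refine ⟨fun j => L.get j, ?_, ?_⟩
  · intro j
    have h2 : L.get j ∈ (L : Multiset (MvPolynomial σ ℂ)) :=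
      Multiset.mem_coe.2 (List.get_mem _ _)
    rw [hL] at h2
    rcases Multiset.mem_add.1 h2 with h | h
    · exact hM _ h
    · have h0 : L.get j = 0 := Multiset.eq_of_mem_replicate h
      change (L.get j).IsHomogeneous 1
      rw [h0]
      exact isHomogeneous_zero _ _ _
  · have h1 : ∏ j : Fin L.length, (1 + L.get j) =
        ((L : Multiset (MvPolynomial σ ℂ)).map fun m => 1 + m).prod := by
      rw [← List.prod_ofFn]
      rw [Multiset.map_coe, Multiset.prod_coe]
      congr 1
      apply List.ext_get (by simp)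
      intro n h1 h2
      simp
    rw [h1, hL]
    simp

/-- leaf (2b) of helper411 with the number of factors uniform in `P` -/
theorem exists_prod_unif (σ : Type*) [Finite σ] (b : ℕ) :
    ∃ N : ℕ, ∀ P : MvPolynomial σ ℂ, constantCoeff P = 1 →
      ∃ m : Fin N → MvPolynomial σ ℂ, (∀ j, (m j).IsHomogeneous 1) ∧
        ∀ x : σ →₀ ℕ, x.degree ≤ b → coeff x (∏ j, (1 + m j)) = coeff x P := by
  obtain ⟨N, hN⟩ := exists_goodN (σ := σ) b
  refine ⟨N, fun P hP => ?_⟩
  obtain ⟨Q, hQ, hPQ⟩ := hN P hP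
  obtain ⟨m, hm, rfl⟩ := hQ.exists_fin
  refine ⟨m, hm, fun x hx => ?_⟩
  have h2 := (mem_pow_idealOfVars_iff' _ _).1 hPQ x (by omega)
  rw [coeff_sub, sub_eq_zero] at h2
  exact h2.symm

end Vale.Agent.P181.Z.H663
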