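import Mathlib.RingTheory.MvPolynomial.Ideal
import Mathlib.RingTheory.MvPolynomial.Homogeneous
import Mathlib.Analysis.Complex.Polynomial.Basic
import Mathlib.LinearAlgebra.Dual.Lemmas
import Mathlib.Algebra.Polynomial.Roots
import Mathlib.Tactic

/-!
# Every polynomial with constant coefficient 1 is a product of factors `1 + m`, `m` homogeneous of
degree 1, modulo degree `> b` (leaf (2b) of helper411, sprint [Z] of P181)
-/

namespace Vale.Agent.P181.Z.H663

open MvPolynomial

variable {σ : Type*}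

/-- products of factors `1 + m`, `m` homogeneous of degree 1 -/
def Good (Q : MvPolynomial σ ℂ) : Prop :=
  ∃ M : Multiset (MvPolynomial σ ℂ), (∀ m ∈ M, m.IsHomogeneous 1) ∧
    Q = (M.map fun m => 1 + m).prod

theorem Good.one : Good (1 : MvPolynomial σ ℂ) := ⟨0, by simp, by simp⟩

theorem Good.mul {P Q : MvPolynomial σ ℂ} (hP : Good P) (hQ : Good Q) : Good (P * Q) := by
  obtain ⟨M, hM, rfl⟩ := hP
  obtain ⟨N, hN, rfl⟩ := hQ
  refine ⟨M + N, ?_, by simp⟩
  intro m hm
  rcases Multiset.mem_add.1 hm with h | h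
  exacts [hM m h, hN m h]

theorem good_aeval (l : MvPolynomial σ ℂ) (hl : l.IsHomogeneous 1) (p : Polynomial ℂ)
    (hp : p.eval 0 = 1) : Good (Polynomial.aeval l p) := by
  have hs := (IsAlgClosed.splits p).eq_prod_roots
  have h0 : 1 = p.leadingCoeff * (p.roots.map (fun a => - a)).prod := by
    have h := congrArg (Polynomial.eval 0) hs
    rw [hp] at h
    simpa [Polynomial.eval_multiset_prod] using h
  have hp0 : p ≠ 0 := by
    rintro rfl
    simp at hp
  have hne : ∀ a ∈ p.roots, a ≠ 0 := by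
    rintro a ha rfl
    have := (Polynomial.mem_roots hp0).1 ha
    rw [Polynomial.IsRoot, hp] at this
    exact one_ne_zero this
  refine ⟨p.roots.map fun a => C (-a⁻¹) * l, ?_, ?_⟩
  · intro m hm
    obtain ⟨a, -, rfl⟩ := Multiset.mem_map.1 hm
    exact hl.C_mul _
  · have h1 : Polynomial.aeval l p =
        C p.leadingCoeff * (p.roots.map fun a => l - C a).prod := by
      conv_lhs => rw [hs]
      rw [map_mul, Polynomial.aeval_C, map_multiset_prod, Multiset.map_map]
      congr 2
      apply Multiset.map_congr rfl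
      intro a _
      simp [algebraMap_eq]
    have h2 : (p.roots.map fun a => l - (C a : MvPolynomial σ ℂ)).prod =
        (p.roots.map fun a => (C (-a) : MvPolynomial σ ℂ)).prod *
          (p.roots.map fun a => 1 + C (-a⁻¹) * l).prod := by
      rw [← Multiset.prod_map_mul]
      congr 1
      apply Multiset.map_congr rfl
      intro a ha
      have h3 : (C (-a) : MvPolynomial σ ℂ) * (C (-a⁻¹) * l) = l := by
        rw [← mul_assoc, ← C_mul]
        rw [neg_mul_neg, mul_inv_cancel₀ (hne a ha)]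
        simp
      rw [mul_add, h3, mul_one, C_neg]
      ring
    have h4 : (p.roots.map fun a => (C (-a) : MvPolynomial σ ℂ)).prod =
        C (p.roots.map fun a => -a).prod := by
      rw [map_multiset_prod, Multiset.map_map]
      rfl
    rw [h1, h2, h4, ← mul_assoc, ← C_mul, ← h0, C_1, one_mul, Multiset.map_map]
    rfl

theorem mem_of_forall_sum_pow {E : Type*} [AddCommGroup E] [Module ℂ E] (W : Submodule ℂ E)
    (n : ℕ) (c : ℕ → E)
    (h : ∀ t : ℂ, ∑ i ∈ Finset.range (n + 1), t ^ i • c i ∈ W) : ∀ i ≤ n, c i ∈ W := by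
  intro i hi
  by_contra hc
  obtain ⟨f, hf, hf'⟩ := W.exists_dual_map_eq_bot_of_notMem hc inferInstance
  have hW : ∀ x ∈ W, f x = 0 := by
    intro x hx
    have h1 : f x ∈ W.map f := ⟨x, hx, rfl⟩
    rw [hf'] at h1
    simpa using h1
  have hp : (∑ j ∈ Finset.range (n + 1),
      Polynomial.C (f (c j)) * Polynomial.X ^ j : Polynomial ℂ) = 0 := by
    apply Polynomial.funext
    intro t
    have h1 := hW _ (h t)
    simp only [map_sum, map_smul, smul_eq_mul] at h1
    simp only [Polynomial.eval_finsetSum, Polynomial.eval_mul, Polynomial.eval_C,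
      Polynomial.eval_pow, Polynomial.eval_X, Polynomial.eval_zero]
    rw [← h1]
    exact Finset.sum_congr rfl fun j _ => mul_comm _ _
  have h2 := congrArg (fun p => Polynomial.coeff p i) hp
  simp only [Polynomial.finsetSum_coeff, Polynomial.coeff_C_mul, Polynomial.coeff_X_pow,
    Polynomial.coeff_zero, mul_ite, mul_one, mul_zero] at h2
  rw [Finset.sum_ite_eq, if_pos (Finset.mem_range.2 (by omega))] at h2
  exact hf h2

/-- span of the `s`-th powers of linear forms -/
noncomputable def W (σ : Type*) (s : ℕ) : Submodule ℂ (MvPolynomial σ ℂ) :=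
  Submodule.span ℂ {x | ∃ l : MvPolynomial σ ℂ, l.IsHomogeneous 1 ∧ x = l ^ s}

theorem pow_mul_mem (s : ℕ) : ∀ j ≤ s, ∀ u ∈ homogeneousSubmodule σ ℂ 1 ^ j,
    ∀ l : MvPolynomial σ ℂ, l.IsHomogeneous 1 → l ^ (s - j) * u ∈ W σ s := by
  intro j
  induction j with
  | zero =>
    intro _ u hu l hl
    rw [pow_zero, Submodule.mem_one] at hu
    obtain ⟨c, rfl⟩ := hu
    rw [Nat.sub_zero, mul_comm, ← Algebra.smul_def]
    exact Submodule.smul_mem _ _ (Submodule.subset_span ⟨l, hl, rfl⟩)
  | succ j ih =>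
    intro hj u hu l hl
    rw [pow_succ] at hu
    refine Submodule.mul_induction_on hu ?_ ?_
    · intro u hu v hv
      have hv' : v.IsHomogeneous 1 := (mem_homogeneousSubmodule _ _).1 hv
      have key := mem_of_forall_sum_pow (W σ s) (s - j)
        (fun i => ((s - j).choose i : ℂ) • (v ^ i * l ^ (s - j - i) * u)) ?_ 1 (by omega)
      · have hne : (((s - j).choose 1 : ℕ) : ℂ) ≠ 0 := by
          rw [Nat.choose_one_right]
          exact_mod_cast (by omega : s - j ≠ 0)
        have h1 := (Submodule.smul_mem_iff _ hne).1 key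
        have h2 : l ^ (s - (j + 1)) * (u * v) = v ^ 1 * l ^ (s - j - 1) * u := by
          rw [show s - (j + 1) = s - j - 1 by omega]
          ring
        rw [h2]
        exact h1
      · intro t
        have h1 := ih (by omega) u hu (C t * v + l)
          ((hv'.C_mul t).add hl)
        have h2 : (C t * v + l) ^ (s - j) * u = ∑ i ∈ Finset.range (s - j + 1),
            t ^ i • (((s - j).choose i : ℂ) • (v ^ i * l ^ (s - j - i) * u)) := by
          rw [add_pow, Finset.sum_mul]
          apply Finset.sum_congr rfl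
          intro i _
          rw [smul_smul, smul_eq_C_mul, C_mul, C_pow, mul_pow]
          simp only [map_natCast]
          ring
        rw [← h2]
        exact h1
    · intro x y hx hy
      rw [mul_add]
      exact add_mem hx hy

theorem mem_W (s : ℕ) (H : MvPolynomial σ ℂ) (hH : H.IsHomogeneous s) : H ∈ W σ s := by
  have h1 : H ∈ homogeneousSubmodule σ ℂ 1 ^ s := by
    rw [homogeneousSubmodule_one_pow]
    exact (mem_homogeneousSubmodule _ _).2 hH
  have h2 := pow_mul_mem s s le_rfl H h1 0 (isHomogeneous_zero _ _ _)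
  simpa using h2

theorem linear_mem_ideal (l : MvPolynomial σ ℂ) (hl : l.IsHomogeneous 1) :
    l ∈ idealOfVars σ ℂ ^ 1 := by
  rw [mem_pow_idealOfVars_iff']
  intro x hx
  exact hl.coeff_eq_zero (by omega)

theorem W_mem_ideal (s : ℕ) (H : MvPolynomial σ ℂ) (hH : H ∈ W σ s) :
    H ∈ idealOfVars σ ℂ ^ s := by
  induction hH using Submodule.span_induction with
  | mem x hx =>
    obtain ⟨l, hl, rfl⟩ := hx
    have := linear_mem_ideal l hl
    rw [pow_one] at this
    exact Ideal.pow_mem_pow this s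
  | zero => exact Ideal.zero_mem _
  | add x y _ _ hx hy => exact Ideal.add_mem _ hx hy
  | smul a x _ hx =>
    rw [smul_eq_C_mul]
    exact Ideal.mul_mem_left _ _ hx

theorem exists_good_one_add (s : ℕ) (hs : 1 ≤ s) (H : MvPolynomial σ ℂ) (hH : H ∈ W σ s) :
    ∃ G, Good G ∧ G - (1 + H) ∈ idealOfVars σ ℂ ^ (s + 1) := by
  induction hH using Submodule.closure_induction with
  | zero => exact ⟨1, Good.one, by simp⟩
  | add x y hx hy h1 h2 =>
    obtain ⟨G, hG, hGx⟩ := h1
    obtain ⟨K, hK, hKy⟩ := h2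
    refine ⟨G * K, hG.mul hK, ?_⟩
    have hxI := W_mem_ideal s x hx
    have hyI := W_mem_ideal s y hy
    have hxy : x * y ∈ idealOfVars σ ℂ ^ (s + 1) := by
      have h3 := Ideal.mul_mem_mul hxI hyI
      rw [← pow_add] at h3
      exact Ideal.pow_le_pow_right (by omega) h3
    have h4 : G * K - (1 + (x + y)) = G * (K - (1 + y)) + (1 + y) * (G - (1 + x)) + x * y := by
      ring
    rw [h4]
    exact Ideal.add_mem _ (Ideal.add_mem _ (Ideal.mul_mem_left _ _ hKy)
      (Ideal.mul_mem_left _ _ hGx)) hxy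
  | smul_mem r x hx =>
    obtain ⟨l, hl, rfl⟩ := hx
    refine ⟨Polynomial.aeval l (1 + Polynomial.C r * Polynomial.X ^ s), ?_, ?_⟩
    · apply good_aeval l hl
      simp [zero_pow (by omega : s ≠ 0)]
    · have h5 : Polynomial.aeval l (1 + Polynomial.C r * Polynomial.X ^ s) = 1 + r • l ^ s := by
        simp [smul_eq_C_mul, algebraMap_eq]
      rw [h5, sub_self]
      exact Ideal.zero_mem _

theorem exists_good (P : MvPolynomial σ ℂ) (hP : constantCoeff P = 1) (b : ℕ) :
    ∃ Q, Good Q ∧ P - Q ∈ idealOfVars σ ℂ ^ (b + 1) := by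
  have hP1 : P - 1 ∈ idealOfVars σ ℂ ^ 1 := by
    rw [mem_pow_idealOfVars_iff']
    intro x hx
    have hx0 : x = 0 := by
      rw [← Finsupp.degree_eq_zero_iff]
      omega
    subst hx0
    rw [← constantCoeff_eq, map_sub, hP]
    simp
  induction b with
  | zero => exact ⟨1, Good.one, by simpa using hP1⟩
  | succ b ih =>
    obtain ⟨Q, hQ, hPQ⟩ := ih
    obtain ⟨G, hG, hGH⟩ := exists_good_one_add (b + 1) (by omega)
      (homogeneousComponent (b + 1) (P - Q))
      (mem_W _ _ (homogeneousComponent_isHomogeneous _ _))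
    set H := homogeneousComponent (b + 1) (P - Q) with hHdef
    have hHI : H ∈ idealOfVars σ ℂ ^ (b + 1) :=
      W_mem_ideal _ _ (mem_W _ _ (homogeneousComponent_isHomogeneous _ _))
    have h1 : P - Q - H ∈ idealOfVars σ ℂ ^ (b + 1 + 1) := by
      rw [mem_pow_idealOfVars_iff']
      intro x hx
      rw [coeff_sub, hHdef, coeff_homogeneousComponent]
      split_ifs with hd
      · exact sub_self _
      · rw [(mem_pow_idealOfVars_iff' _ _).1 hPQ x (by omega), sub_zero]
    have hQ1 : Q - 1 ∈ idealOfVars σ ℂ ^ 1 := by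
      have h2 : Q - 1 = (P - 1) - (P - Q) := by ring
      rw [h2]
      exact Ideal.sub_mem _ hP1 (Ideal.pow_le_pow_right (by omega) hPQ)
    have h3 : (Q - 1) * H ∈ idealOfVars σ ℂ ^ (b + 1 + 1) := by
      have h4 := Ideal.mul_mem_mul hQ1 hHI
      rw [← pow_add] at h4
      exact Ideal.pow_le_pow_right (by omega) h4
    refine ⟨Q * G, hQ.mul hG, ?_⟩
    have h5 : P - Q * G = (P - Q - H) - Q * (G - (1 + H)) - (Q - 1) * H := by ring
    rw [h5]
    exact Ideal.sub_mem _ (Ideal.sub_mem _ h1 (Ideal.mul_mem_left _ _ hGH)) h3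

/-- leaf (2b) of helper411 -/
theorem exists_prod (b : ℕ) (P : MvPolynomial σ ℂ) (hP : constantCoeff P = 1) :
    ∃ (N : ℕ) (m : Fin N → MvPolynomial σ ℂ), (∀ j, (m j).IsHomogeneous 1) ∧
      ∀ x : σ →₀ ℕ, x.degree ≤ b → coeff x (∏ j, (1 + m j) - P) = 0 := by
  obtain ⟨Q, ⟨M, hM, rfl⟩, hPQ⟩ := exists_good P hP b
  refine ⟨M.toList.length, fun j => M.toList.get j, ?_, ?_⟩
  · intro j
    exact hM _ (Multiset.mem_toList.1 (List.get_mem _ _))
  · intro x hx
    have h1 : ∏ j : Fin M.toList.length, (1 + M.toList.get j) =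
        (M.map fun m => 1 + m).prod := by
      rw [← List.prod_ofFn]
      conv_rhs => rw [← Multiset.coe_toList M]
      rw [Multiset.map_coe, Multiset.prod_coe]
      congr 1
      apply List.ext_get (by simp)
      intro n h1 h2
      simp
    rw [h1]
    have h2 := (mem_pow_idealOfVars_iff' _ _).1 hPQ x (by omega)
    rw [coeff_sub] at h2 ⊢
    rw [← neg_sub, h2, neg_zero]

end Vale.Agent.P181.Z.H663
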