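import Vale.Agent.P181.Z.H582.NT

/-!
# Row [S1] of sprint [Z]: the exponential moment sum over the letters of `J`
-/

namespace Vale.Agent.P181.Z.H663

open Finset Real
open Vale.Agent.P181.Z.H582 (dotp)

/-- one letter -/
theorem one_term (σ t : ℝ) (m : ℕ) (hσ : 0 ≤ σ) (hm : 1 ≤ m) (ht : 2 * σ * m ≤ t) (ht0 : 0 < t) :
    (exp σ - 1) * (exp (-t) / (1 - exp σ * exp (-t))) ≤ exp (-t / 2) / m := by
  have hm0 : (0 : ℝ) < m := by exact_mod_cast hm
  have hm1 : (1 : ℝ) ≤ m := by exact_mod_cast hm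
  have hσt : σ ≤ t / 2 := by nlinarith
  have he1 : exp σ * exp (-t) ≤ exp (-t / 2) := by
    rw [← Real.exp_add]
    apply Real.exp_le_exp.2
    linarith
  have he2 : exp (-t / 2) < 1 := by
    rw [Real.exp_lt_one_iff]
    linarith
  have hpos : 0 < 1 - exp σ * exp (-t) := by linarith
  -- `m (e^σ - 1) ≤ e^(t/2) - 1`
  have hb : (m : ℝ) * (exp σ - 1) ≤ exp (t / 2) - 1 := by
    have h1 : 1 + (m : ℝ) * (exp σ - 1) ≤ (1 + (exp σ - 1)) ^ m :=
      one_add_mul_le_pow (by linarith [Real.exp_pos σ]) m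
    have h2 : (1 + (exp σ - 1)) ^ m = exp (m * σ) := by
      rw [add_sub_cancel, Real.exp_nat_mul]
    have h3 : exp (m * σ) ≤ exp (t / 2) := Real.exp_le_exp.2 (by linarith)
    rw [h2] at h1
    linarith
  have hs1 : 0 ≤ exp σ - 1 := by
    have := Real.add_one_le_exp σ
    linarith
  have hden : 1 - exp (-t / 2) ≤ 1 - exp σ * exp (-t) := by linarith
  have hden0 : 0 < 1 - exp (-t / 2) := by linarith
  have hEE : exp (-t) = exp (-t / 2) * exp (-t / 2) := by
    rw [← Real.exp_add]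
    congr 1
    ring
  have hEi : exp (t / 2) * exp (-t / 2) = 1 := by
    rw [← Real.exp_add]
    have : t / 2 + -t / 2 = 0 := by ring
    rw [this, Real.exp_zero]
  rw [← mul_div_assoc, div_le_div_iff₀ hpos hm0]
  have hE0 : 0 < exp (-t / 2) := Real.exp_pos _
  calc (exp σ - 1) * exp (-t) * m = (m * (exp σ - 1)) * exp (-t / 2) * exp (-t / 2) := by
        rw [hEE]; ring
    _ ≤ (exp (t / 2) - 1) * exp (-t / 2) * exp (-t / 2) := by
        gcongr
    _ = (1 - exp (-t / 2)) * exp (-t / 2) := by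
        rw [sub_mul, hEi, one_mul]
    _ ≤ (1 - exp σ * exp (-t)) * exp (-t / 2) := by
        gcongr
    _ = exp (-t / 2) * (1 - exp σ * exp (-t)) := by ring

theorem geom_le (y : ℝ) (hy : 0 < y) (n : ℕ) :
    ∑ k ∈ range n, exp (-y / 2) ^ k ≤ (1 - exp (-y / 2))⁻¹ := by
  have h1 : exp (-y / 2) < 1 := by
    rw [Real.exp_lt_one_iff]
    linarith
  have h0 : 0 ≤ exp (-y / 2) := (Real.exp_pos _).le
  rw [← tsum_geometric_of_lt_one h0 h1]
  exact Summable.sum_le_tsum _ (fun i _ => pow_nonneg h0 i) (summable_geometric_of_lt_one h0 h1)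

theorem one_le_inv (y : ℝ) (hy : 0 < y) : 1 ≤ (1 - exp (-y / 2))⁻¹ := by
  have h1 : exp (-y / 2) < 1 := by
    rw [Real.exp_lt_one_iff]
    linarith
  exact (one_le_inv₀ (by linarith)).2 (by linarith [Real.exp_pos (-y / 2)])

/-- the row `j` sum -/
theorem row_sum {ι : Type*} [Fintype ι] [DecidableEq ι] (L : Finset (ι → ℕ)) (x : ι → ℝ)
    (hx : ∀ i, 0 < x i) (a : ℕ) (hL : ∀ v ∈ L, ∀ i, v i ≤ a) (j : ι) :
    ∑ v ∈ L.filter (fun v => 1 ≤ v j), exp (-(dotp x v) / 2) / (v j : ℝ) ≤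
      (1 + log a) * ∏ i, (1 - exp (-(x i) / 2))⁻¹ := by
  let f : ι → ℕ → ℝ := fun i k => if i = j then (if k = 0 then 0 else 1 / (k : ℝ)) else
    exp (-(x i) / 2) ^ k
  have hf0 : ∀ i k, 0 ≤ f i k := by
    intro i k
    simp only [f]
    split_ifs <;> positivity
  have hsub : L.filter (fun v => 1 ≤ v j) ⊆ Fintype.piFinset (fun _ : ι => range (a + 1)) := by
    intro v hv
    rw [Fintype.mem_piFinset]
    intro i
    have := hL v (mem_filter.1 hv).1 i
    exact mem_range.2 (by omega)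
  have hterm : ∀ v ∈ L.filter (fun v => 1 ≤ v j),
      exp (-(dotp x v) / 2) / (v j : ℝ) ≤ ∏ i, f i (v i) := by
    intro v hv
    have hvj : 1 ≤ v j := (mem_filter.1 hv).2
    have h1 : exp (-(dotp x v) / 2) = ∏ i, exp (-(x i) / 2) ^ (v i) := by
      rw [dotp, neg_div, Finset.sum_div, ← Finset.sum_neg_distrib, Real.exp_sum]
      refine Finset.prod_congr rfl fun i _ => ?_
      rw [← Real.exp_nat_mul]
      congr 1
      ring
    rw [h1, ← Finset.mul_prod_erase univ (fun i => exp (-(x i) / 2) ^ (v i)) (mem_univ j),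
      ← Finset.mul_prod_erase univ (fun i => f i (v i)) (mem_univ j)]
    have h2 : ∏ i ∈ univ.erase j, f i (v i) = ∏ i ∈ univ.erase j, exp (-(x i) / 2) ^ (v i) := by
      refine Finset.prod_congr rfl fun i hi => ?_
      simp only [f, if_neg (ne_of_mem_erase hi)]
    have h3 : f j (v j) = 1 / (v j : ℝ) := by
      simp only [f, if_true]
      rw [if_neg (by omega)]
    rw [h2, h3]
    have h4 : exp (-(x j) / 2) ^ (v j) ≤ 1 :=
      pow_le_one₀ (Real.exp_pos _).le (by
        rw [Real.exp_le_one_iff]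
        linarith [hx j])
    have h5 : 0 ≤ ∏ i ∈ univ.erase j, exp (-(x i) / 2) ^ (v i) :=
      Finset.prod_nonneg fun i _ => pow_nonneg (Real.exp_pos _).le _
    have h6 : (0 : ℝ) < v j := by exact_mod_cast hvj
    rw [mul_div_right_comm]
    apply mul_le_mul_of_nonneg_right _ h5
    gcongr
  have hrow : ∀ i, ∑ k ∈ range (a + 1), f i k ≤
      (if i = j then 1 + log a else 1) * (1 - exp (-(x i) / 2))⁻¹ := by
    intro i
    by_cases hij : i = j
    · subst hij
      simp only [f, if_true]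
      have h1 : ∑ k ∈ range (a + 1), (if k = 0 then (0 : ℝ) else 1 / (k : ℝ)) ≤ 1 + log a := by
        rw [Finset.sum_range_succ']
        simp only [if_true, add_zero, Nat.succ_ne_zero, if_false]
        have h2 := harmonic_le_one_add_log a
        rw [harmonic] at h2
        push_cast at h2
        simpa [one_div] using h2
      have h3 := one_le_inv (x i) (hx i)
      have h4 : 0 ≤ 1 + log a := le_trans (Finset.sum_nonneg fun k _ => by
        split_ifs <;> positivity) h1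
      nlinarith
    · simp only [f, if_neg hij, one_mul]
      exact geom_le (x i) (hx i) (a + 1)
  calc ∑ v ∈ L.filter (fun v => 1 ≤ v j), exp (-(dotp x v) / 2) / (v j : ℝ)
      ≤ ∑ v ∈ L.filter (fun v => 1 ≤ v j), ∏ i, f i (v i) := Finset.sum_le_sum hterm
    _ ≤ ∑ v ∈ Fintype.piFinset (fun _ : ι => range (a + 1)), ∏ i, f i (v i) :=
        Finset.sum_le_sum_of_subset_of_nonneg hsub fun v _ _ =>
          Finset.prod_nonneg fun i _ => hf0 i _
    _ = ∏ i, ∑ k ∈ range (a + 1), f i k := by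
        rw [Finset.prod_univ_sum]
    _ ≤ ∏ i, ((if i = j then 1 + log a else 1) * (1 - exp (-(x i) / 2))⁻¹) :=
        Finset.prod_le_prod (fun i _ => Finset.sum_nonneg fun k _ => hf0 i k) fun i _ => hrow i
    _ = (1 + log a) * ∏ i, (1 - exp (-(x i) / 2))⁻¹ := by
        rw [Finset.prod_mul_distrib, Finset.prod_ite_eq' univ j]
        simp

/-- row [S1] -/
theorem s1 {ι : Type*} [Fintype ι] [DecidableEq ι] (L : Finset (ι → ℕ)) (J : (ι → ℕ) → Prop)
    [DecidablePred J] (x : ι → ℝ) (hx : ∀ i, 0 < x i) (σ : ℝ) (hσ : 0 ≤ σ) (a : ℕ)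
    (hL : ∀ v ∈ L, ∀ i, v i ≤ a) (hJ : ∀ v ∈ L, J v → ∃ j, 2 * σ ≤ x j ∧ 1 ≤ v j) :
    (exp σ - 1) * ∑ v ∈ L.filter J, exp (-(dotp x v)) / (1 - exp σ * exp (-(dotp x v))) ≤
      Fintype.card ι * ((1 + log a) * ∏ i, (1 - exp (-(x i) / 2))⁻¹) := by
  have hterm : ∀ v ∈ L.filter J,
      (exp σ - 1) * (exp (-(dotp x v)) / (1 - exp σ * exp (-(dotp x v)))) ≤
        ∑ j, if 1 ≤ v j then exp (-(dotp x v) / 2) / (v j : ℝ) else 0 := by
    intro v hv
    obtain ⟨hvL, hvJ⟩ := mem_filter.1 hv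
    obtain ⟨j, hj, hvj⟩ := hJ v hvL hvJ
    have hvj' : (1 : ℝ) ≤ v j := by exact_mod_cast hvj
    have hdot : x j * v j ≤ dotp x v :=
      Finset.single_le_sum (f := fun i => x i * (v i : ℝ))
        (fun i _ => mul_nonneg (hx i).le (Nat.cast_nonneg _)) (mem_univ j)
    have h1 := one_term σ (dotp x v) (v j) hσ hvj (by nlinarith [hx j]) (by nlinarith [hx j])
    refine le_trans h1 ?_
    have h2 := Finset.single_le_sum (f := fun j => if 1 ≤ v j then
      exp (-(dotp x v) / 2) / (v j : ℝ) else 0) (fun i _ => by split_ifs <;> positivity)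
      (mem_univ j)
    simpa [hvj] using h2
  rw [Finset.mul_sum]
  calc ∑ v ∈ L.filter J, (exp σ - 1) * (exp (-(dotp x v)) / (1 - exp σ * exp (-(dotp x v))))
      ≤ ∑ v ∈ L.filter J, ∑ j, (if 1 ≤ v j then exp (-(dotp x v) / 2) / (v j : ℝ) else 0) :=
        Finset.sum_le_sum hterm
    _ ≤ ∑ v ∈ L, ∑ j, (if 1 ≤ v j then exp (-(dotp x v) / 2) / (v j : ℝ) else 0) :=
        Finset.sum_le_sum_of_subset_of_nonneg (filter_subset _ _) fun v _ _ =>
          Finset.sum_nonneg fun j _ => by split_ifs <;> positivity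
    _ = ∑ j, ∑ v ∈ L.filter (fun v => 1 ≤ v j), exp (-(dotp x v) / 2) / (v j : ℝ) := by
        rw [Finset.sum_comm]
        refine Finset.sum_congr rfl fun j _ => ?_
        rw [Finset.sum_filter]
    _ ≤ ∑ _j : ι, (1 + log a) * ∏ i, (1 - exp (-(x i) / 2))⁻¹ :=
        Finset.sum_le_sum fun j _ => row_sum L x hx a hL j
    _ = Fintype.card ι * ((1 + log a) * ∏ i, (1 - exp (-(x i) / 2))⁻¹) := by
        rw [Finset.sum_const, Finset.card_univ, nsmul_eq_mul]

end Vale.Agent.P181.Z.H663
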